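import Vale.Agent.P236Z.Top.All

/-!
# P236: the classes `b_j`, `j ≥ 4`, do not survive in the mod three Adams spectral sequence

There is a stable homotopy category with a suspension spectrum functor; in each of them the mod
three Eilenberg-Mac Lane spectrum `H` and the Adams tower of the sphere exist, and for every `j ≥ 4`
every element of the stem `4 * 3 ^ (j + 1) - 2` has Adams filtration at least three, and every
permanent cycle of filtration at most two in this stem is hit by a differential.

The statement uses only the definitions of `P251/T/Axioms`, `P251/St/Base` and `P236Z/Top/St`.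
-/

namespace Vale.Agent.Results.P236.Vanishing

open Vale.Agent.P251.St Vale.Agent.P251.St.SHCat Vale.Agent.P236Z.St

theorem result : (∃ T : SHCat, Nonempty (Susp T)) ∧ ∀ (T : SHCat) (_ : Susp T),
    (∃ (H : T.C) (e : Hom T.one H), IsHF 3 e) ∧
    ∀ (H : T.C) (e : Hom T.one H), IsHF 3 e → Nonempty (AdamsTower e) ∧
      ∀ (A : AdamsTower e) (j : ℕ), 4 ≤ j →
        (∀ θ : Hom (sph T (4 * 3 ^ (j + 1) - 2)) T.one, A.FiltGe 3 θ) ∧
        ∀ s : ℕ, s ≤ 2 → ∀ x : Hom (sph T (4 * 3 ^ (j + 1) - 2)) (ten H (A.X s)),
          A.IsPermCycle s x → A.IsBoundary s x :=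
  Vale.Agent.P236Z.Top.fin2

end Vale.Agent.Results.P236.Vanishing
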